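import Crest.Agent.X212.Flo2.Real
import Crest.Agent.X212.Lad50.Bas
import Crest.Agent.X212.Mcg32.Good
import Crest.Agent.X212.Alg43.Tri

/-!
# Row 212, layer AN-S (helper22): counts and a realisation give the theory
-/

set_option autoImplicit false

open Set Filter Function Module

noncomputable section

universe v

namespace Crest.Agent.X212.Asm22

open Flo2 Win22 Bor5.T
open Bor5 (K)

/-- relabelling -/
@[reducible] def rl {L L' : Type} (X : Hf L) (e : L' ≃ L) : Hf L' where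
  H := X.H
  gr s := X.gr (e s)
  ind := X.ind.comp (f := Prod.map e id) (e.injective.prodMap injective_id)
  top := ((e.prodCongr (Equiv.refl ℚ)).iSup_comp (g := fun i : L × ℚ => X.gr i.1 i.2)).trans X.top
  fd _ := X.fd _
  U := X.U
  U_mem _ := X.U_mem _
  w s := X.w (e s)
  lat _ := X.lat _
  N := X.N
  ev _ := X.ev _
  od _ := X.od _

theorem ext_gr {L V : Type} [AddCommGroup V] [Module K V] (X : Hf L) {f g : X.H →ₗ[K] V}
    (h : ∀ s x, ∀ y ∈ X.gr s x, f y = g y) (y : X.H) : f y = g y := by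
  have hy : y ∈ ⨆ z : L × ℚ, X.gr z.1 z.2 := X.top ▸ Submodule.mem_top
  induction hy using Submodule.iSup_induction' with
  | mem z y hy => exact h _ _ y hy
  | zero => rw [map_zero, map_zero]
  | add y z _ _ h1 h2 => rw [map_add, map_add, h1, h2]

section alg

variable {S : Sk.{v}} (Z : Cs S) {a b c : S.E}

theorem bs : Bas Z := Lad50.Bs.bas S Z

theorem htp {τ τ' : S.F a b} (h : S.Htp τ τ') :
    S.Pt τ' ∧ Z.hm τ = Z.hm τ' ∧ Z.dg τ = Z.dg τ' := by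
  induction h with
  | refl h => exact ⟨h, rfl, rfl⟩
  | step σ τ' τ'' _ p q ih =>
    have h1 := Z.dg_fc σ τ' (q.fc.symm.subset (by simp))
    have h2 := Z.dg_fc σ τ'' (q.fc.symm.subset (by simp))
    exact ⟨p, ih.2.1.trans ((bs Z).inv σ _ _ ih.1 p q), by linarith [ih.2.2]⟩

theorem cmp {τ : S.F a c} {τ₁ : S.F a b} {τ₂ : S.F b c} (h : S.Cmp τ τ₁ τ₂) :
    Z.hm τ = Z.hm τ₂ ∘ₗ Z.hm τ₁ := by
  obtain ⟨σ, ρ, ρ₁, ρ₂, h0, h1, h2, q⟩ := h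
  rw [(htp Z h0).2.1, (htp Z h1).2.1, (htp Z h2).2.1]
  exact (bs Z).comp σ _ _ _ (htp Z h0).1 (htp Z h1).1 (htp Z h2).1 q

theorem nz {Q : S.F a S.one} (h : S.Nz Q) : Z.NZ Q :=
  let ⟨_, _, σ, τ, L, h1, h2, h3, h4⟩ := h
  (bs Z).nz σ τ L Q h1 h2 h3 h4

theorem has {N : S.Cap} (h : N.Has) : Z.Good N :=
  let ⟨_, _, _, f, g, k, D0, D1, P, h⟩ := h
  Mcg32.good S Z _ _ _ f g k D0 D1 N P h

theorem dg_cap {σ τ : S.F a b} {L : S.F3 a b c} {Q : S.F c S.one} (h : S.CapI σ τ L Q)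
    (hc : ¬S.dead c) : Z.dg3 L + Z.dg Q = Z.dg τ := by
  obtain ⟨h1, -, c₀, -, h2⟩ := h
  have e1 := Z.dg_fc σ τ (by simp [h1])
  have e2 := Z.dg_cp σ c₀
  rw [h2] at e2
  linarith [e2 hc]

theorem tot_rp {f : S.Arr a b} {L : Type} {p : L → S.F a b} (h : f.Rp p) (y : Z.H a) :
    Z.tot f y = ∑ᶠ d, Z.hm (p d) y := by
  obtain ⟨e, h⟩ := h
  rw [Cs.tot, ← finsum_comp_equiv e]
  exact finsum_congr fun d => by rw [(htp Z (h d)).2.1]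

theorem exists_one : ∃ y : Z.H S.one, y ≠ 0 :=
  have := Module.nontrivial_of_finrank_pos (R := K) (M := Z.H S.one) (by rw [(bs Z).one]; norm_num)
  exists_ne 0

/-- a model of the homology of an end -/
structure Md (u : S.UD a) : Type 1 where
  X : Hf (S.L a)
  e : X.H ≃ₗ[K] Z.H a
  gr : ∀ c x y, y ∈ X.gr c x ↔ e y ∈ (Z.cx a).gr c x
  U : ∀ c x, ∀ y ∈ X.gr c x, e (X.U y) = Z.hm (u.U c) (e y)
  w : X.w = (Z.A a).w
  psc : S.psc a → ∀ c (k : ℕ), finrank K (X.gr c (X.w c + 2 * k)) = 1 ∧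
    X.gr c (X.w c + (2 * k + 1)) = ⊥ ∧ ∀ y ∈ X.gr c (X.w c + 2 * k + 2), X.U y = 0 → y = 0

theorem exists_md (u : S.UD a) (h : S.qhs a) : Nonempty (Md Z u) :=
  let ⟨X, e, h1, h2, h3, h4⟩ := (bs Z).hf a u h
  ⟨⟨X, e, h1, h2, h3, h4⟩⟩

variable {Z} {u : S.UD a} {u' : S.UD b} {u'' : S.UD c} (M : Md Z u) (M' : Md Z u')

/-- the map of a family on the models -/
def mp (σ : S.F a b) : M.X.H →ₗ[K] M'.X.H := M'.e.symm.toLinearMap ∘ₗ Z.hm σ ∘ₗ M.e.toLinearMap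

theorem e_mp (σ : S.F a b) (y : M.X.H) : M'.e (mp M M' σ y) = Z.hm σ (M.e y) :=
  M'.e.apply_symm_apply _

theorem mp_zero {σ : S.F a b} {y : M.X.H} : mp M M' σ y = 0 ↔ Z.hm σ (M.e y) = 0 :=
  M'.e.symm.map_eq_zero_iff

theorem mp_mem (σ : S.F a b) {x : ℚ} {y : M.X.H} (h : y ∈ M.X.gr (S.s σ) x) :
    mp M M' σ y ∈ M'.X.gr (S.t σ) (x + Z.dg σ) := by
  rw [M'.gr, e_mp]
  exact (bs Z).mem σ x _ ((M.gr _ _ _).1 h)

theorem off {σ : S.F a b} {s : S.L a} (hs : s ≠ S.s σ) {x : ℚ} {y : M.X.H} (h : y ∈ M.X.gr s x) :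
    Z.hm σ (M.e y) = 0 := (bs Z).off σ s x hs _ ((M.gr _ _ _).1 h)

theorem hm_U {σ τ : S.F a b} (h : S.Cmp τ (u.U (S.s σ)) σ) {s : S.L a} {x : ℚ} {y : M.X.H}
    (hy : y ∈ M.X.gr s x) (e : s = S.s σ) : Z.hm σ (M.e (M.X.U y)) = Z.hm τ (M.e y) := by
  rw [M.U _ _ y hy, cmp Z h, e]
  rfl

theorem mp_U {σ τ : S.F a b} (h : S.Cmp τ (u.U (S.s σ)) σ) (h' : S.Cmp τ σ (u'.U (S.t σ)))
    (y : M.X.H) : mp M M' σ (M.X.U y) = M'.X.U (mp M M' σ y) := by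
  refine ext_gr M.X (f := mp M M' σ ∘ₗ M.X.U) (g := M'.X.U ∘ₗ mp M M' σ) (fun s x y hy => ?_) y
  simp only [LinearMap.comp_apply]
  by_cases e : s = S.s σ
  · refine M'.e.injective ?_
    rw [e_mp, hm_U M h hy e, M'.U _ _ _ (mp_mem M M' σ (e ▸ hy)), e_mp, cmp Z h']
    rfl
  · rw [(mp_zero M M').2 (off M e hy), (mp_zero M M').2 (off M e (M.X.U_mem _ _ _ hy)), map_zero]

theorem kil (hU : Surjective M.X.U) {σ : S.F a b} (h : Sk.Kil u σ) : Z.hm σ = 0 := by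
  induction h with
  | base σ τ h h' => rw [(htp Z h).2.1, (bs Z).al0 τ h']
  | step σ τ h _ ih =>
    refine LinearMap.ext fun y => ?_
    obtain ⟨y, rfl⟩ := M.e.surjective y
    obtain ⟨y, rfl⟩ := hU y
    refine ext_gr M.X (f := Z.hm σ ∘ₗ M.e.toLinearMap ∘ₗ M.X.U) (g := 0) (fun s x y hy => ?_) y
    by_cases e : s = S.s σ
    · exact (hm_U M h hy e).trans (by rw [ih]; rfl)
    · exact off M e (M.X.U_mem _ _ _ hy)

theorem pur (h : S.psc a) {L : Type} (e : L ≃ S.L a) : Pur (rl M.X e) fun s => M.X.w (e s) := by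
  refine ⟨fun s k => ⟨(M.psc h _ k).1, (M.psc h _ k).2.2⟩, fun s x hx => by_contra fun k => ?_⟩
  obtain ⟨n, rfl⟩ := M.X.lat _ x k
  rcases Nat.even_or_odd' n with ⟨n, rfl | rfl⟩
  · exact hx ⟨n, by push_cast; rfl⟩
  · exact k (by push_cast; exact (M.psc h _ n).2.1)

theorem sum_mp {L : Type} (p : L → S.F a b) (y : M.X.H) :
    ∑ᶠ d, mp M M' (p d) y = M'.e.symm (∑ᶠ d, Z.hm (p d) (M.e y)) :=
  (M'.e.symm.toAddEquiv.map_finsum _).symm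

theorem exact_mp (M'' : Md Z u'') {f : S.Arr a b} {g : S.Arr b c} {L L' : Type} {p : L → S.F a b}
    {q : L' → S.F b c} (hf : f.Rp p) (hg : g.Rp q) (h : Exact (Z.tot f) (Z.tot g)) :
    Exact (fun y => ∑ᶠ d, mp M M' (p d) y) fun y => ∑ᶠ d, mp M' M'' (q d) y := fun y => by
  simp only [sum_mp, ← tot_rp Z hf, ← tot_rp Z hg, LinearEquiv.map_eq_zero_iff, h _, mem_range,
    LinearEquiv.symm_apply_eq]
  exact ⟨fun ⟨x, e⟩ => ⟨M.e.symm x, by rwa [M.e.apply_symm_apply]⟩, fun ⟨_, e⟩ => ⟨_, e⟩⟩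

end alg

variable {S : Scene} {T : Sk.{v}} (r : Rl S T) {Z : Cs T} (M : ∀ i, Md Z (r.U i)) (y₀ : Z.H T.one)

open Classical in
/-- the class of a cap -/
def xi {i : S.ι} (c : S.γ i) (d : (S.cap c).L) : (M i).X.H :=
  if h : (S.cap c).Ps d (S.cap c).η then (M i).e.symm (Z.hm (r.cp c d h) y₀) else 0

theorem xi_eq {i : S.ι} (c : S.γ i) (d : (S.cap c).L) (h : (S.cap c).Ps d (S.cap c).η) :
    xi r M y₀ c d = (M i).e.symm (Z.hm (r.cp c d h) y₀) := dif_pos h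

/-- the theory -/
def th : Th S where
  H i := rl (M i).X (r.lab i)
  F c d := mp (M _) (M _) (r.pt c d)
  dg c d := Z.dg (r.pt c d)
  ξ := xi r M y₀
  map c d s t x y h1 h2 hy := by
    have := mp_mem (M _) (M _) (r.pt c d) (x := x) (y := y) (by rw [r.s c d s h1]; exact hy)
    rwa [r.t c d t h2] at this
  off c d s s' x y h1 h2 hy := (mp_zero _ _).2
    (off _ (fun e => h2 ((r.lab _).injective (e.trans (r.s c d s h1)))) hy)
  U c d y := let ⟨_, h1, h2⟩ := r.comU c d; mp_U _ _ h1 h2 y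
  fin c y := ((bs Z).fin ⟨_, r.pt c, r.isPt c, r.prp c⟩ ((M _).e y)).subset
    fun _ h k => h ((mp_zero _ _).2 k)
  nat c c' φ d d' h1 h2 h3 := by rw [mp, (htp Z (r.nat c c' φ d d' h1 h2 h3)).2.1, mp]
  comp c₁ c₂ c g d d₁ d₂ h1 h2 h3 := LinearMap.ext fun y => (M _).e.injective (by
    rw [LinearMap.comp_apply, e_mp, e_mp, e_mp, cmp Z (r.comp c₁ c₂ c g d d₁ d₂ h1 h2 h3)]
    rfl)
  id c φ d s x y h1 h2 h3 h4 hy := by
    obtain ⟨τ, k1, k2, k3⟩ := r.id c φ d s h1 h2 h3 h4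
    refine (M _).e.injective ?_
    rw [e_mp, (htp Z k1).2.1]
    exact (bs Z).idn τ (htp Z k1).1 k2 x _ (k3 ▸ ((M _).gr _ _ _).1 hy :)
  deg c d _ _ _ e g Y c₀ x h1 h2 h3 h4 :=
    let ⟨τ, k1, k2⟩ := r.deg c d e g Y c₀ x h1 h2 h3 h4
    (htp Z k1).2.2.trans (Z.dg_tp τ x k2)
  tn c d s _ _ _ e g Y h1 h2 h3 := by
    obtain ⟨τ, k1, k2, k3⟩ := r.tn c d e g Y h1 h2
    obtain ⟨n, hn⟩ := (bs Z).hi1 τ (htp Z k1).1 (r.qhs _) (r.qhs _) k2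
    refine ⟨n, fun x hx y hy h => (M _).e.map_eq_zero_iff.1 (hn x hx _ ?_ ?_)⟩
    · rw [k3, r.s c d s h3]
      exact ((M _).gr _ _ _).1 hy
    · rw [← (htp Z k1).2.1]
      exact (mp_zero _ _).1 h
  tp c d e h1 h2 := by
    obtain ⟨τ, k1, k2⟩ := r.tp c d e h1 h2
    obtain ⟨n, hn⟩ := (bs Z).hi0 τ k2
    refine ⟨n, fun s x hx y hy => (mp_zero _ _).2 ?_⟩
    rw [(htp Z k1).2.1]
    by_cases k : r.lab _ s = T.s τ
    · exact hn x hx _ (k ▸ ((M _).gr _ _ _).1 hy :)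
    · exact off _ k hy
  psc i h := ⟨_, pur (M i) (r.psc i h) _⟩
  s3 := by
    have := pur (M S.i0) (r.psc _ ⟨S.s0⟩) (r.lab _)
    simpa only [(M _).w, Z.sph _ r.sph] using this
  bu c c' _ _ _ _ _ _ _ _ _ hv hv' f g ρ ρ' d d' d₀ h1 h2 h3 h4 h5 h6 h7 h8 := by
    obtain ⟨u, σ, σ', p, p', L, Q, Q', k1, k2, k3, k4, k5, k6, k7, k8⟩ :=
      r.bu c c' hv hv' f g ρ ρ' d d' d₀ h1 h2 h3 h4 h5 h6 h7
    rw [mp, mp, (htp Z k1).2.1, (htp Z k2).2.1, (bs Z).bu σ σ' p p' L Q Q' (htp Z k1).1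
      (htp Z k2).1 k3 k5 k6 (nz Z k7) (nz Z k8) (by
        linarith [dg_cap Z k5 k4, dg_cap Z k6 k4, (htp Z k1).2.2, (htp Z k2).2.2])]
  triad c₁ c₂ c₃ _ _ _ _ f g h h1 h2 h3 h4 :=
    let ⟨A, B, C, D0, D1, D2, N, P, P', k1, k2, k3, k4, k5⟩ := r.triad c₁ c₂ c₃ f g h h1 h2 h3 h4
    exact_mp _ _ _ k1 k2 (Alg43.triStmt T Z _ _ _ A B C D0 D1 D2 N P P' (has Z k3) k4 k5)
  natc c c' φ d d' h1 h2 h3 := by
    obtain ⟨h, h', k⟩ := r.natc c c' φ d d' h1 h2 h3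
    rw [xi_eq r M y₀ c d h, xi_eq r M y₀ c' d' h', (htp Z k).2.1]
  compc c₁ c₂ c g d d₁ d₂ h1 h2 h3 h4 h5 := (M _).e.injective (by
    rw [e_mp, xi_eq r M y₀ c d h5, xi_eq r M y₀ c₁ d₁ h4, LinearEquiv.apply_symm_apply,
      LinearEquiv.apply_symm_apply, cmp Z (r.compc c₁ c₂ c g d d₁ d₂ h1 h2 h3 h4 h5)]
    rfl)
  bnd c e he := by
    obtain ⟨β, hβ, D, h⟩ := r.bnd c e he
    choose b hb using fun e' => (bs Z).bnd T.one (r.ob _) β e' y₀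
    obtain ⟨R, hR⟩ := h (∑ e' ∈ D, |b e'|)
    refine ⟨R, fun d c₀ h1 h2 h3 => hR d h1 c₀ h3 fun e' k => (hb e' _ _ fun k' => h2 ?_).trans
      ((le_abs_self _).trans (Finset.single_le_sum (f := fun e' => |b e'|)
        (fun _ _ => abs_nonneg _) k))⟩
    rw [xi_eq r M y₀ c d h1, k', map_zero]

theorem nv (h0 : y₀ ≠ 0) {Q : Prd} {R : ℝ} {P : Pent S Q R} (h : r.NV P) : (th r M y₀).NV P := by
  obtain ⟨A, B, C, D0, D1, N, Pn, k1, k2, ⟨i, τ, k3, k4⟩, k5, k6⟩ := h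
  intro hU
  by_contra hn
  refine h0 (Alg43.pentStmt T Z _ _ A B C D0 D1 N Pn (has Z k1) k2 ⟨i, fun e => h0 ?_⟩
    (fun y => ?_) y₀ ?_)
  · rw [(htp Z k3).2.1, (bs Z).ex1 τ (htp Z k3).1 k4] at e
    exact LinearMap.congr_fun e y₀
  · simp only [Cs.tot, kil (M P.j) hU (k5 _), LinearMap.zero_apply, finsum_zero]
  · refine finsum_eq_zero_of_forall_eq_zero fun k => ?_
    obtain ⟨D, h, p, q⟩ := k6 k
    rw [← (htp Z q).2.1, ← (M P.i).e.symm.map_eq_zero_iff, ← xi_eq r M y₀ P.C D h]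
    exact by_contra fun e => hn ⟨D, p, e⟩

theorem asm : AsmStmt.{v} := fun _ _ r ⟨Z⟩ =>
  let ⟨y, hy⟩ := exists_one Z
  ⟨th r (fun i => (exists_md Z (r.U i) (r.qhs i)).some) y, fun _ _ _ h => nv r _ y hy h⟩

end Crest.Agent.X212.Asm22
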