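import Crest.Agent.X212.Asm22.Main
import Crest.Agent.X212.Geo28.Re
import Crest.Agent.X212.Sw88.Kil

/-!
# Row 212, layer AN-S (helper22): the theory on the ranges of the idempotents
-/

set_option autoImplicit false
set_option linter.unusedSectionVars false

open Set Filter Function Module

noncomputable section

universe v

namespace Crest.Agent.X212.Asm22

open Flo2 Win22 Bor5.T
open Bor5 (K)

section res

variable {L : Type} (X : Hf L)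

theorem onto_U {s : L} {x : ℚ} (h1 : finrank K (X.gr s x) = 1) (h2 : finrank K (X.gr s (x + 2)) = 1)
    (hi : ∀ y ∈ X.gr s (x + 2), X.U y = 0 → y = 0) : ∀ y ∈ X.gr s x, ∃ z, X.U z = y := fun y hy => by
  have := X.fd s x
  have := X.fd s (x + 2)
  let f : X.gr s (x + 2) →ₗ[K] X.gr s x :=
    X.U.restrict fun z hz => by simpa using X.U_mem s _ z hz
  obtain ⟨z, hz⟩ := (LinearMap.injective_iff_surjective_of_finrank_eq_finrank (f := f) (h2.trans h1.symm)).1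
    ((injective_iff_map_eq_zero f).2 fun z e => Subtype.ext (hi _ z.2 (congrArg Subtype.val e))) ⟨y, hy⟩
  exact ⟨z, congrArg Subtype.val hz⟩

variable (p : X.H →ₗ[K] X.H) (hg : ∀ s x, ∀ y ∈ X.gr s x, p y ∈ X.gr s x) (pp : ∀ y, p (p y) = p y)
  (hU : ∀ y, p (X.U y) = X.U y)

include hU in
theorem rk_res {s : L} {x : ℚ} (h1 : finrank K (X.gr s x) = 1) (h2 : finrank K (X.gr s (x + 2)) = 1)
    (hi : ∀ y ∈ X.gr s (x + 2), X.U y = 0 → y = 0) :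
    finrank K ((X.gr s x).comap (p.eqLocus .id).subtype) = 1 :=
  (Submodule.comapSubtypeEquivOfLe fun y hy => by
    obtain ⟨z, rfl⟩ := onto_U X h1 h2 hi y hy
    exact hU z).finrank_eq.trans h1

/-- the fixed points of a graded idempotent -/
@[reducible] def res : Hf L where
  H := p.eqLocus .id
  gr s x := (X.gr s x).comap (p.eqLocus .id).subtype
  ind i := Submodule.disjoint_def.2 fun y h1 h2 => Subtype.ext (Submodule.disjoint_def.1 (X.ind i) y h1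
    ((iSup₂_le fun j hj => Submodule.comap_mono (le_iSup₂_of_le j hj le_rfl) :
      _ ≤ Submodule.comap (p.eqLocus .id).subtype _) h2))
  top := eq_top_iff.2 fun y _ => by
    have : (⊤ : Submodule K X.H).map (p.codRestrict (p.eqLocus .id) pp) ≤
        ⨆ i : L × ℚ, (X.gr i.1 i.2).comap (p.eqLocus .id).subtype := by
      rw [← X.top, Submodule.map_iSup]
      exact iSup_mono fun i => Submodule.map_le_iff_le_comap.2 (hg _ _)
    exact this ⟨y, trivial, Subtype.ext y.2⟩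
  fd s x := have := X.fd s x
    .of_injective ((p.eqLocus .id).subtype.restrict (q := X.gr s x) fun _ h => h)
      fun _ _ e => Subtype.ext (Subtype.ext (congrArg Subtype.val e :))
  U := X.U.restrict fun y _ => hU y
  U_mem s x y h := X.U_mem s x y h
  w := X.w
  lat s x h := X.lat s x fun e => h (by rw [e, Submodule.comap_bot, Submodule.ker_subtype])
  N := X.N
  ev s k h1 h2 := ⟨rk_res X p hU (X.ev s k h1 h2).1 (by
      have := (X.ev s (k + 2) (by omega) (h2.add even_two)).1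
      rwa [Nat.cast_add, ← add_assoc] at this) (X.ev s k h1 h2).2,
    fun y hy e => Subtype.ext ((X.ev s k h1 h2).2 y hy (congrArg Subtype.val e))⟩
  od s k h1 h2 := by rw [X.od s k h1 h2, Submodule.comap_bot, Submodule.ker_subtype]

end res

section alg

variable {S : Sk.{v}} (Z : Cs S) {a b c : S.E}

theorem dg_cmp {τ : S.F a c} {τ₁ : S.F a b} {τ₂ : S.F b c} (h : S.Cmp τ τ₁ τ₂) :
    Z.dg τ = Z.dg τ₁ + Z.dg τ₂ := by
  obtain ⟨σ, ρ, ρ₁, ρ₂, h0, h1, h2, q⟩ := h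
  have e1 := Z.dg_fc σ ρ (q.fc.symm.subset (by simp))
  have e2 := Z.dg_nk σ ⟨b, ρ₁, ρ₂⟩ (q.nk.symm.subset (by simp))
  linarith [(htp Z h0).2.2, (htp Z h1).2.2, (htp Z h2).2.2]

theorem dg_e (E : S.ED a) (s : S.L a) : Z.dg (E.e s) = 0 := by linarith [dg_cmp Z (E.ee s)]

/-- the idempotent of an end -/
def ε [Fintype (S.L a)] (E : S.ED a) : Z.H a →ₗ[K] Z.H a := ∑ s, Z.hm (E.e s)

/-- `σ` lands in the fixed points of `e` -/
def Ot (e : Z.H b →ₗ[K] Z.H b) (σ : S.F a b) : Prop := ∀ y, e (Z.hm σ y) = Z.hm σ y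

/-- `σ` factors through `e` -/
def It (e : Z.H a →ₗ[K] Z.H a) (σ : S.F a b) : Prop := ∀ y, Z.hm σ (e y) = Z.hm σ y

section eps

variable {Z} {u : S.UD a} [Fintype (S.L a)] (E : S.ED a)

theorem e_mem {s : S.L a} {x : ℚ} {y : Z.H a} (h : y ∈ (Z.cx a).gr s x) :
    Z.hm (E.e s) y ∈ (Z.cx a).gr s x := by
  have := (bs Z).mem (E.e s) x y (by rwa [E.s])
  rwa [E.t, dg_e, add_zero] at this

theorem e_off {s s' : S.L a} (e : s ≠ s') {x : ℚ} {y : Z.H a} (h : y ∈ (Z.cx a).gr s x) :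
    Z.hm (E.e s') y = 0 := (bs Z).off _ s x (by rwa [E.s]) y h

theorem e_e (s : S.L a) (y : Z.H a) : Z.hm (E.e s) (Z.hm (E.e s) y) = Z.hm (E.e s) y :=
  (LinearMap.congr_fun (cmp Z (E.ee s)) y).symm

theorem ε_gr {s : S.L a} {x : ℚ} {y : Z.H a} (h : y ∈ (Z.cx a).gr s x) : ε Z E y = Z.hm (E.e s) y := by
  rw [ε, LinearMap.sum_apply]
  exact Finset.sum_eq_single s (fun _ _ e => e_off E e.symm h) (by simp)

variable (M : Md Z u)
include M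

theorem ext_Z {V : Type} [AddCommGroup V] [Module K V] {f g : Z.H a →ₗ[K] V}
    (h : ∀ s x, ∀ y ∈ (Z.cx a).gr s x, f y = g y) (y : Z.H a) : f y = g y := by
  obtain ⟨y, rfl⟩ := M.e.surjective y
  exact ext_gr M.X (f := f ∘ₗ M.e.toLinearMap) (g := g ∘ₗ M.e.toLinearMap)
    (fun s x y hy => h s x _ ((M.gr _ _ _).1 hy)) y

theorem ot_e (s : S.L a) : Ot Z (ε Z E) (E.e s) :=
  ext_Z M (f := ε Z E ∘ₗ Z.hm (E.e s)) fun s' x y hy => by
    rw [LinearMap.comp_apply]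
    by_cases e : s' = s
    · rw [ε_gr E (e_mem E (e ▸ hy)), e_e]
    · rw [e_off E e hy, map_zero]

theorem it_e (s : S.L a) : It Z (ε Z E) (E.e s) :=
  ext_Z M (f := Z.hm (E.e s) ∘ₗ ε Z E) fun s' x y hy => by
    rw [LinearMap.comp_apply, ε_gr E hy]
    by_cases e : s' = s
    · rw [e, e_e]
    · rw [e_off E e hy, e_off E e (e_mem E hy)]

theorem ot {τ : S.F b a} (h : E.Out τ) : Ot Z (ε Z E) τ := fun y => by
  rw [cmp Z h]
  exact ot_e E M _ _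

theorem it {τ : S.F a b} (h : E.In τ) : It Z (ε Z E) τ := fun y => by
  rw [cmp Z h]
  exact congrArg (Z.hm τ) (it_e E M _ _)

theorem εε (y : Z.H a) : ε Z E (ε Z E y) = ε Z E y := by
  conv_lhs => rw [show ε Z E y = _ from LinearMap.sum_apply _ _ _, map_sum]
  simp only [ot_e E M _ y]
  exact (LinearMap.sum_apply _ _ _).symm

end eps

/-- a model of the fixed points of `ε` -/
structure M2 (u : S.UD a) (ε : Z.H a →ₗ[K] Z.H a) : Type 1 where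
  X : Hf (S.L a)
  e : X.H →ₗ[K] Z.H a
  p : Z.H a →ₗ[K] X.H
  ep : ∀ y, e (p y) = ε y
  pe : ∀ y, p (e y) = y
  εε : ∀ y, ε (ε y) = ε y
  gr : ∀ c x y, y ∈ X.gr c x ↔ e y ∈ (Z.cx a).gr c x
  U : ∀ c x, ∀ y ∈ X.gr c x, e (X.U y) = Z.hm (u.U c) (e y)
  w : X.w = (Z.A a).w
  psc : S.psc a → ∀ c (k : ℕ), finrank K (X.gr c (X.w c + 2 * k)) = 1 ∧
    X.gr c (X.w c + (2 * k + 1)) = ⊥ ∧ ∀ y ∈ X.gr c (X.w c + 2 * k + 2), X.U y = 0 → y = 0

variable {Z} {u : S.UD a} {u' : S.UD b} {u'' : S.UD c}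

theorem exists_m2 [Fintype (S.L a)] (E : S.ED a) (M : Md Z u) (h : ∀ s, E.Out (u.U s)) :
    Nonempty (M2 Z u (ε Z E)) := by
  let q : M.X.H →ₗ[K] M.X.H := M.e.symm.toLinearMap ∘ₗ ε Z E ∘ₗ M.e.toLinearMap
  have eq : ∀ y, M.e (q y) = ε Z E (M.e y) := fun y => M.e.apply_symm_apply _
  have pp : ∀ y, q (q y) = q y := fun y => M.e.injective (by rw [eq, eq, εε E M])
  have hU : ∀ y, q (M.X.U y) = M.X.U y := ext_gr M.X (f := q ∘ₗ M.X.U) fun s x y hy =>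
    M.e.injective (by rw [LinearMap.comp_apply, eq, M.U s x y hy, ot E M (h s)])
  refine ⟨⟨res M.X q (fun s x y hy => ?_) pp hU, M.e.toLinearMap ∘ₗ Submodule.subtype _,
    q.codRestrict _ pp ∘ₗ M.e.symm.toLinearMap, fun y => (eq _).trans (congrArg _ (M.e.apply_symm_apply y)),
    fun y => Subtype.ext ((congrArg q (M.e.symm_apply_apply _)).trans y.2), εε E M, fun _ _ _ => M.gr _ _ _,
    fun s x y hy => M.U s x y hy, M.w, fun k s n => ⟨rk_res M.X q hU (M.psc k s n).1 ?_ (M.psc k s n).2.2, ?_,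
      fun y hy e => Subtype.ext ((M.psc k s n).2.2 y hy (congrArg Subtype.val e))⟩⟩⟩
  · rw [M.gr] at hy ⊢
    rw [eq, ε_gr E hy]
    exact e_mem E hy
  · have := (M.psc k s (n + 1)).1
    rwa [Nat.cast_succ, mul_add, mul_one, ← add_assoc] at this
  · show Submodule.comap _ _ = _
    rw [(M.psc k s n).2.1, Submodule.comap_bot, Submodule.ker_subtype]

/-- the model of the whole space -/
def Md.m2 (M : Md Z u) : M2 Z u .id :=
  ⟨M.X, M.e.toLinearMap, M.e.symm.toLinearMap, M.e.apply_symm_apply, M.e.symm_apply_apply,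
    fun _ => rfl, M.gr, M.U, M.w, M.psc⟩

namespace M2

variable {ε : Z.H a →ₗ[K] Z.H a} {ε' : Z.H b →ₗ[K] Z.H b} {ε'' : Z.H c →ₗ[K] Z.H c} (M : M2 Z u ε)
  (M' : M2 Z u' ε')

theorem inj : Injective M.e := LeftInverse.injective M.pe

theorem εe (y : M.X.H) : ε (M.e y) = M.e y := by rw [← M.ep, M.pe]

/-- the map of a family on the models -/
def mp (σ : S.F a b) : M.X.H →ₗ[K] M'.X.H := M'.p ∘ₗ Z.hm σ ∘ₗ M.e

variable {σ τ : S.F a b}

theorem e_mp (ho : Ot Z ε' σ) (y : M.X.H) : M'.e (mp M M' σ y) = Z.hm σ (M.e y) := (M'.ep _).trans (ho _)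

theorem mp_of {y : M.X.H} (h : Z.hm σ (M.e y) = 0) : mp M M' σ y = 0 := (congrArg M'.p h).trans (map_zero _)

theorem mp_mem (ho : Ot Z ε' σ) {x : ℚ} {y : M.X.H} (h : y ∈ M.X.gr (S.s σ) x) :
    mp M M' σ y ∈ M'.X.gr (S.t σ) (x + Z.dg σ) := by
  rw [M'.gr, e_mp M M' ho]
  exact (bs Z).mem σ x _ ((M.gr _ _ _).1 h)

theorem off {s : S.L a} (hs : s ≠ S.s σ) {x : ℚ} {y : M.X.H} (h : y ∈ M.X.gr s x) :
    Z.hm σ (M.e y) = 0 := (bs Z).off σ s x hs _ ((M.gr _ _ _).1 h)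

theorem hm_U (h : S.Cmp τ (u.U (S.s σ)) σ) {s : S.L a} {x : ℚ} {y : M.X.H}
    (hy : y ∈ M.X.gr s x) (e : s = S.s σ) : Z.hm σ (M.e (M.X.U y)) = Z.hm τ (M.e y) := by
  rw [M.U _ _ y hy, cmp Z h, e]
  rfl

theorem mp_U (ho : Ot Z ε' σ) (h : S.Cmp τ (u.U (S.s σ)) σ) (h' : S.Cmp τ σ (u'.U (S.t σ)))
    (y : M.X.H) : mp M M' σ (M.X.U y) = M'.X.U (mp M M' σ y) := by
  refine ext_gr M.X (f := mp M M' σ ∘ₗ M.X.U) (g := M'.X.U ∘ₗ mp M M' σ) (fun s x y hy => ?_) y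
  simp only [LinearMap.comp_apply]
  by_cases e : s = S.s σ
  · refine M'.inj ?_
    rw [e_mp M M' ho, hm_U M h hy e, M'.U _ _ _ (mp_mem M M' ho (e ▸ hy)), e_mp M M' ho, cmp Z h']
    rfl
  · rw [mp_of M M' (off M e hy), mp_of M M' (off M e (M.X.U_mem _ _ _ hy)), map_zero]

include M' in
theorem kil (hU : Surjective M.X.U) (h1 : ∀ y, ε' y = y) {ρ : S.F a c} (h : Sk.Kil2 u u' ρ)
    (y : M.X.H) : Z.hm ρ (M.e y) = 0 := by
  obtain ⟨σ₁, τ, τ₀, σ₂, k1, k2, k3, k4, k5⟩ := h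
  obtain ⟨n, hn⟩ := (bs Z).hi0 τ₀ k5
  have ho : Ot Z ε' σ₁ := fun _ => h1 _
  have := Sw88.kil_on M.X (mp M M' σ₁) M'.X.U (mp_U M M' ho k2 k3) (S.s σ₁)
    (fun s x e y hy => mp_of M M' (off M e hy)) n (fun x hx y hy => mp_of M M' (by
      rw [(htp Z k4).2.1]
      by_cases e : S.s σ₁ = S.s τ₀
      · exact hn x hx _ (e ▸ (M.gr _ _ _).1 hy :)
      · exact off M e hy)) univ (fun y _ => (hU y).imp fun _ e => ⟨trivial, e⟩) y trivial
  rw [cmp Z k1, LinearMap.comp_apply, ← e_mp M M' ho, this, map_zero, map_zero]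

theorem pur (h : S.psc a) {L : Type} (e : L ≃ S.L a) : Pur (rl M.X e) fun s => M.X.w (e s) := by
  refine ⟨fun s k => ⟨(M.psc h _ k).1, (M.psc h _ k).2.2⟩, fun s x hx => by_contra fun k => ?_⟩
  obtain ⟨n, rfl⟩ := M.X.lat _ x k
  rcases Nat.even_or_odd' n with ⟨n, rfl | rfl⟩
  · exact hx ⟨n, by push_cast; rfl⟩
  · exact k (by push_cast; exact (M.psc h _ n).2.1)

variable {f : S.Arr a b} {g : S.Arr b c} {L L' : Type} {p : L → S.F a b} {q : L' → S.F b c}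

theorem sum_mp (hf : f.Rp p) (ho : ∀ d, Ot Z ε' (p d)) (y : M.X.H) :
    M'.e (∑ᶠ d, mp M M' (p d) y) = Z.tot f (M.e y) := by
  rw [tot_rp Z hf]
  exact (M'.e.toAddMonoidHom.map_finsum_of_injective M'.inj _).trans
    (finsum_congr fun d => e_mp M M' (ho d) y)

theorem tot_it (hf : f.Rp p) (hi : ∀ d, It Z ε (p d)) (y : Z.H a) : Z.tot f (ε y) = Z.tot f y := by
  rw [tot_rp Z hf, tot_rp Z hf]
  exact finsum_congr fun d => hi d y

theorem tot_ot (hf : f.Rp p) (ho : ∀ d, Ot Z ε' (p d)) (y : Z.H a) : ε' (Z.tot f y) = Z.tot f y := by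
  obtain ⟨e, h⟩ := hf
  refine (ε'.toAddMonoidHom.map_finsum ((bs Z).fin f y)).trans (finsum_congr fun i => ?_)
  obtain ⟨d, rfl⟩ := e.surjective i
  rw [← (htp Z (h d)).2.1]
  exact ho d y

theorem exact_mp (M'' : M2 Z u'' ε'') (hf : f.Rp p) (hg : g.Rp q) (hi : ∀ d, It Z ε (p d))
    (ho : ∀ d, Ot Z ε' (p d)) (ho' : ∀ d, Ot Z ε'' (q d))
    (h : (∀ x, Z.tot g (Z.tot f x) = 0) ∧ ∀ y, Z.tot g y = 0 → ∃ x, Z.tot f x = ε' y) :
    Exact (fun y => ∑ᶠ d, mp M M' (p d) y) fun y => ∑ᶠ d, mp M' M'' (q d) y := fun y => by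
  rw [← map_eq_zero_iff M''.e M''.inj, sum_mp M' M'' hg ho']
  refine ⟨fun k => ?_, fun ⟨x, e⟩ => by rw [← e, sum_mp M M' hf ho, h.1]⟩
  obtain ⟨x, e⟩ := h.2 _ k
  exact ⟨M.p x, M'.inj (by rw [sum_mp M M' hf ho, M.ep, tot_it hf hi, e, εe])⟩

end M2

open Alg43 WG in
theorem dbl_zero {f : S.Arr a b} {g : S.Arr b c} (D : Sk.Dbl f g) (x : Z.H a) : Z.tot g (Z.tot f x) = 0 := by
  rw [ach_hm, ach_hm]
  obtain ⟨x, hx, rfl⟩ := (Z.cx a).cx.exists_cls x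
  obtain ⟨xs, -, r, -⟩ := exists_rp x
  refine ((Z.cx c).cx.cls_eq_zero ((ach Z g).isCh.cyc ((ach Z f).isCh.cyc hx))).2 ⟨(wm _ (bd_nul D)).lim x, ?_⟩
  have := (((Z.cx c).dM.rp ((wm _ (bd_nul D)).rp r)).add ((wm _ (bd_nul D)).rp ((Z.cx a).dM.rp r))).ext
    ((ach Z g).rp ((ach Z f).rp r)) (r.loc (nul_loc Z D))
  rwa [show (Z.cx a).dM.lim x = 0 from hx, map_zero, add_zero] at this

theorem has2 (hG : Good2Stmt.{v}) {N : S.Cap} (h : N.Has2) : Z.Good N :=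
  let ⟨_, _, _, f, g, k, D0, D1, T, P, h⟩ := h
  hG S Z _ _ _ f g k D0 D1 N T P h

end alg

open M2

variable (hG : Good2Stmt.{v}) (hT : Tri2Stmt.{v}) {S : Scene} {T : Sk.{v}} (r : Rl2 S T) {Z : Cs T}
  [∀ i, Fintype (T.L (r.ob i))] (M₀ : ∀ i, Md Z (r.U i)) (M : ∀ i, M2 Z (r.U i) (ε Z (r.E i)))
  (y₀ : Z.H T.one)

open Classical in
/-- the class of a cap -/
def xi2 {i : S.ι} (c : S.γ i) (d : (S.cap c).L) : (M i).X.H :=
  if h : (S.cap c).Ps d (S.cap c).η then (M i).p (Z.hm (r.cp c d h) y₀) else 0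

theorem xi2_eq {i : S.ι} (c : S.γ i) (d : (S.cap c).L) (h : (S.cap c).Ps d (S.cap c).η) :
    xi2 r M y₀ c d = (M i).p (Z.hm (r.cp c d h) y₀) := dif_pos h

include M₀ in
theorem e_xi2 {i : S.ι} (c : S.γ i) (d : (S.cap c).L) (h : (S.cap c).Ps d (S.cap c).η) :
    (M i).e (xi2 r M y₀ c d) = Z.hm (r.cp c d h) y₀ := by
  rw [xi2_eq r M y₀ c d h, (M i).ep, ot _ (M₀ i) (r.ecp c d h)]

include M₀ in
theorem opt {i j : S.ι} (c : S.κ i j) (d : (S.cob c).L) : Ot Z (ε Z (r.E j)) (r.pt c d) :=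
  ot _ (M₀ j) (r.ept c d).2

include M₀ in
theorem ipt {i j : S.ι} (c : S.κ i j) (d : (S.cob c).L) : It Z (ε Z (r.E i)) (r.pt c d) :=
  it _ (M₀ i) (r.ept c d).1

/-- the theory -/
def th2 : Th S where
  H i := rl (M i).X (r.lab i)
  F c d := M2.mp (M _) (M _) (r.pt c d)
  dg c d := Z.dg (r.pt c d)
  ξ := xi2 r M y₀
  map c d s t x y h1 h2 hy := by
    have := M2.mp_mem (M _) (M _) (opt r M₀ c d) (x := x) (y := y) (by rw [r.s c d s h1]; exact hy)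
    rwa [r.t c d t h2] at this
  off c d s s' x y h1 h2 hy := mp_of _ _
    (M2.off _ (fun e => h2 ((r.lab _).injective (e.trans (r.s c d s h1)))) hy)
  U c d y := let ⟨_, h1, h2⟩ := r.comU c d; M2.mp_U _ _ (opt r M₀ c d) h1 h2 y
  fin c y := ((bs Z).fin ⟨_, r.pt c, r.isPt c, r.prp c⟩ ((M _).e y)).subset
    fun _ h k => h (mp_of _ _ k)
  nat c c' φ d d' h1 h2 h3 := by rw [M2.mp, (htp Z (r.nat c c' φ d d' h1 h2 h3)).2.1, M2.mp]
  comp c₁ c₂ c g d d₁ d₂ h1 h2 h3 := LinearMap.ext fun y => (M _).inj (by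
    rw [LinearMap.comp_apply, M2.e_mp _ _ (opt r M₀ _ _), M2.e_mp _ _ (opt r M₀ _ _),
      M2.e_mp _ _ (opt r M₀ _ _), cmp Z (r.comp c₁ c₂ c g d d₁ d₂ h1 h2 h3)]
    rfl)
  id c φ d s x y h1 h2 h3 h4 hy := (M _).inj (by
    rw [M2.e_mp _ _ (opt r M₀ _ _), (htp Z (r.id c φ d s h1 h2 h3 h4)).2.1,
      ← ε_gr _ (((M _).gr _ _ _).1 hy), εe])
  deg c d _ _ _ e g Y c₀ x h1 h2 h3 h4 :=
    let ⟨τ, k1, k2⟩ := r.deg c d e g Y c₀ x h1 h2 h3 h4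
    (htp Z k1).2.2.trans (Z.dg_tp τ x k2)
  tn c d s _ _ _ e g Y h1 h2 h3 := by
    obtain ⟨τ, k1, k2, k3⟩ := r.tn c d e g Y h1 h2
    obtain ⟨n, hn⟩ := (bs Z).hi1 τ (htp Z k1).1 (r.qhs _) (r.qhs _) k2
    refine ⟨n, fun x hx y hy h => (map_eq_zero_iff _ (M _).inj).1 (hn x hx _ ?_ ?_)⟩
    · rw [k3, r.s c d s h3]
      exact ((M _).gr _ _ _).1 hy
    · rw [← (htp Z k1).2.1, ← M2.e_mp _ _ (opt r M₀ c d), h, map_zero]
  tp c d e h1 h2 := by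
    obtain ⟨τ, k1, k2⟩ := r.tp c d e h1 h2
    obtain ⟨n, hn⟩ := (bs Z).hi0 τ k2
    refine ⟨n, fun s x hx y hy => mp_of _ _ ?_⟩
    rw [(htp Z k1).2.1]
    by_cases k : r.lab _ s = T.s τ
    · exact hn x hx _ (k ▸ ((M _).gr _ _ _).1 hy :)
    · exact M2.off _ k hy
  psc i h := ⟨_, M2.pur (M i) (r.psc i h) _⟩
  s3 := by
    have := M2.pur (M S.i0) (r.psc _ ⟨S.s0⟩) (r.lab _)
    simpa only [(M _).w, Z.sph _ r.sph] using this
  bu c c' _ _ _ _ _ _ _ _ _ hv hv' f g ρ ρ' d d' d₀ h1 h2 h3 h4 h5 h6 h7 h8 := by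
    obtain ⟨u, σ, σ', p, p', L, Q, Q', k1, k2, k3, k4, k5, k6, k7, k8⟩ :=
      r.bu c c' hv hv' f g ρ ρ' d d' d₀ h1 h2 h3 h4 h5 h6 h7
    rw [M2.mp, M2.mp, (htp Z k1).2.1, (htp Z k2).2.1, (bs Z).bu σ σ' p p' L Q Q' (htp Z k1).1
      (htp Z k2).1 k3 k5 k6 (nz Z k7) (nz Z k8) (by
        linarith [dg_cap Z k5 k4, dg_cap Z k6 k4, (htp Z k1).2.2, (htp Z k2).2.2])]
  triad c₁ c₂ c₃ _ _ _ _ f g h h1 h2 h3 h4 :=
    let ⟨⟨A0, B0, D0, k5, k6⟩, A, B, C, D1, D2, N, P, k1, k2, k3, k4⟩ := r.triad c₁ c₂ c₃ f g h h1 h2 h3 h4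
    have k7 : ∀ x, Z.tot B (Z.tot A x) = 0 := fun x => by
      rw [tot_rp Z k1, tot_rp Z k2, ← tot_rp Z k5, ← tot_rp Z k6, dbl_zero D0]
    M2.exact_mp _ _ _ k1 k2 (ipt r M₀ c₁) (opt r M₀ c₁) (opt r M₀ c₂)
      ⟨k7, hT T Z _ _ _ A B C D1 D2 N P _ (has2 hG k3) (fun i => (htp Z (k4.htp i)).2.2.trans (dg_e Z _ _))
        (fun y => (LinearMap.sum_apply _ _ _).trans (Fintype.sum_bijective _ k4.bij _ _ fun i => by
          rw [(htp Z (k4.htp i)).2.1]).symm) (M _).εε (tot_ot k1 (opt r M₀ c₁)) (tot_it k2 (ipt r M₀ c₂)) k7⟩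
  natc c c' φ d d' h1 h2 h3 := by
    obtain ⟨h, h', k⟩ := r.natc c c' φ d d' h1 h2 h3
    rw [xi2_eq r M y₀ c d h, xi2_eq r M y₀ c' d' h', (htp Z k).2.1]
  compc c₁ c₂ c g d d₁ d₂ h1 h2 h3 h4 h5 := (M _).inj (by
    rw [M2.e_mp _ _ (opt r M₀ _ _), e_xi2 r M₀ M y₀ c d h5, e_xi2 r M₀ M y₀ c₁ d₁ h4,
      cmp Z (r.compc c₁ c₂ c g d d₁ d₂ h1 h2 h3 h4 h5)]
    rfl)
  bnd c e he := by
    obtain ⟨β, hβ, D, h⟩ := r.bnd c e he
    choose b hb using fun e' => (bs Z).bnd T.one (r.ob _) β e' y₀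
    obtain ⟨R, hR⟩ := h (∑ e' ∈ D, |b e'|)
    refine ⟨R, fun d c₀ h1 h2 h3 => hR d h1 c₀ h3 fun e' k => (hb e' _ _ fun k' => h2 ?_).trans
      ((le_abs_self _).trans (Finset.single_le_sum (f := fun e' => |b e'|)
        (fun _ _ => abs_nonneg _) k))⟩
    rw [xi2_eq r M y₀ c d h1, k', map_zero]

theorem nv2 (hP : Pent2Stmt.{v}) (h0 : y₀ ≠ 0) {Q : Prd} {R : ℝ} {P : Pent S Q R} (h : r.NV P) :
    (th2 hG hT r M₀ M y₀).NV P := by
  obtain ⟨A, B, C, D0, D1, N, U, Pn, k1, k2, ⟨i, τ, k3, k4⟩, k5, k6⟩ := h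
  intro hU
  by_contra hn
  refine h0 (hP T Z _ _ A B C D0 D1 N U Pn (has2 hG k1) k2 ⟨i, fun e => h0 ?_⟩
    (fun k => LinearMap.ext fun y => ?_) y₀ fun k => ?_)
  · rw [(htp Z k3).2.1, (bs Z).ex1 τ (htp Z k3).1 k4] at e
    exact LinearMap.congr_fun e y₀
  · rw [← it _ (M₀ _) (k5 k).2, ← (M P.j).ep,
      M2.kil (M P.j) (M₀ S.i0).m2 hU (fun _ => rfl) (k5 k).1, LinearMap.zero_apply]
  · obtain ⟨D, h, p, q⟩ := k6 k
    rw [← (htp Z q).2.1, ← e_xi2 r M₀ M y₀ P.C D h, map_eq_zero_iff _ (M _).inj]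
    exact by_contra fun e => hn ⟨D, p, e⟩

include hG hT in
theorem asm2 (hP : Pent2Stmt.{v}) : Asm2Stmt.{v} := fun S T r ⟨Z⟩ => by
  obtain ⟨y, hy⟩ := exists_one Z
  have : ∀ i, Fintype (T.L (r.ob i)) := fun i =>
    have := (S.ob i).fin
    have := Finite.of_equiv _ (r.lab i)
    .ofFinite _
  have M₀ := fun i => (exists_md Z (r.U i) (r.qhs i)).some
  exact ⟨th2 hG hT r M₀ (fun i => (exists_m2 (r.E i) (M₀ i) (r.eU i)).some) y,
    fun _ _ _ h => nv2 hG hT r M₀ _ y hP hy h⟩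

end Crest.Agent.X212.Asm22
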